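import Crest.Agent.N221.Base
import Crest.Agent.R208.N3

/-! Row 221: the unstable / stable Jacobi tensors (helper32). -/

set_option autoImplicit false

open MeasureTheory Set Filter Topology
open scoped ContDiff RealInnerProductSpace ENNReal
open Crest.GeometryTopology.Submanifold
open Crest.Agent.R241.DDefs Crest.Agent.R241.D2
open Crest.Agent.R208.J Crest.Agent.R208.L

noncomputable section

namespace Crest.Agent.N221

section abstract

variable {E : Type*} [NormedAddCommGroup E]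

/-- uniqueness for a linear equation with bounded coefficients -/
lemma lin_unique [NormedSpace ℝ E] (A : ℝ → E →L[ℝ] E) {b : ℝ} (hb : ∀ t, ‖A t‖ ≤ b) {x : ℝ → E}
    (hx : ∀ t, HasDerivAt x (A t (x t)) t) (h0 : x 0 = 0) (t : ℝ) : x t = 0 :=
  congrFun (ODE_solution_unique_univ (v := fun t y => A t y) (s := fun _ => univ)
    (K := b.toNNReal) (f := x) (g := fun _ => 0) (t₀ := 0)
    (fun t => ((A t).lipschitz.weaken (Real.le_toNNReal_iff_coe_le
      ((norm_nonneg _).trans (hb t)) |>.2 (hb t))).lipschitzOnWith)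
    (fun t => ⟨hx t, trivial⟩) (fun t => ⟨by simpa using hasDerivAt_const t (0 : E), trivial⟩) h0) t

variable [InnerProductSpace ℝ E] {x x' : ℝ → E} {c s t : ℝ}

lemma grow_lower (hx : ∀ t, HasDerivAt x (x' t) t) (h : ∀ t, c * ‖x t‖ ^ 2 ≤ ⟪x' t, x t⟫)
    (hst : s ≤ t) : Real.exp (c * (t - s)) * ‖x s‖ ≤ ‖x t‖ := by
  have hd : ∀ u, HasDerivAt (fun u => Real.exp (-(2 * c * u)) * ⟪x u, x u⟫)
      (Real.exp (-(2 * c * u)) * (2 * (⟪x' u, x u⟫ - c * ‖x u‖ ^ 2))) u := fun u => by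
    refine ((((hasDerivAt_id u).const_mul (2 * c)).neg.exp).mul ((hx u).inner ℝ (hx u))).congr_deriv ?_
    simp only [real_inner_self_eq_norm_sq, real_inner_comm (x' u) (x u), id, Pi.neg_apply]
    ring
  have := monotone_of_deriv_nonneg (fun u => (hd u).differentiableAt) (fun u => by
    rw [(hd u).deriv]
    exact mul_nonneg (Real.exp_pos _).le (by linarith [h u])) hst
  simp only [real_inner_self_eq_norm_sq] at this
  refine (pow_le_pow_iff_left₀ (by positivity) (norm_nonneg _) two_ne_zero).1 ?_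
  have e : Real.exp (c * (t - s)) ^ 2 * Real.exp (-(2 * c * t)) = Real.exp (-(2 * c * s)) := by
    rw [sq, ← Real.exp_add, ← Real.exp_add]; congr 1; ring
  refine le_of_mul_le_mul_left ?_ (Real.exp_pos (-(2 * c * t)))
  rw [mul_pow, ← mul_assoc, mul_comm (Real.exp _), e]
  exact this

lemma grow_upper (hx : ∀ t, HasDerivAt x (x' t) t) (h : ∀ t, ⟪x' t, x t⟫ ≤ c * ‖x t‖ ^ 2)
    (hst : s ≤ t) : ‖x t‖ ≤ Real.exp (c * (t - s)) * ‖x s‖ := by
  have := grow_lower (x := fun u => x (-u)) (x' := fun u => -x' (-u)) (c := -c)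
    (fun u => by simpa [Function.comp_def] using (hx (-u)).scomp u (hasDerivAt_neg u))
    (fun u => by rw [inner_neg_left]; linarith [h (-u)]) (neg_le_neg hst)
  simp only [neg_neg] at this
  refine le_trans (le_of_eq ?_) (mul_le_mul_of_nonneg_left this (Real.exp_pos _).le)
  rw [← mul_assoc, ← Real.exp_add, show c * (t - s) + -c * (-s - -t) = 0 by ring, Real.exp_zero,
    one_mul]

end abstract

variable {n N : ℕ} {a : ℝ} {S : Set (Euc N)} {G : Geo n N (-(a ^ 2)) S} {q : TT N}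

/-- Jacobi's formula for `M' = A M + M B` (pointwise derivatives suffice) -/
lemma hasDerivAt_det_pt {M : ℝ → Op N} {A B : Op N} {t : ℝ}
    (h : ∀ w, HasDerivAt (fun s => M s w) (A (M t w) + M t (B w)) t) (hd : (M t).det ≠ 0) :
    HasDerivAt (fun s => (M s).det) ((LinearMap.trace ℝ (Euc N) (A : Euc N →ₗ[ℝ] Euc N) +
      LinearMap.trace ℝ (Euc N) (B : Euc N →ₗ[ℝ] Euc N)) * (M t).det) t := by
  obtain ⟨m, hm⟩ : ∃ m : Op N → Matrix (Fin N) (Fin N) ℝ, m = fun F : Op N => LinearMap.toMatrix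
    (EuclideanSpace.basisFun (Fin N) ℝ).toBasis (EuclideanSpace.basisFun (Fin N) ℝ).toBasis
      (F : Euc N →ₗ[ℝ] Euc N) := ⟨_, rfl⟩
  have e1 : ∀ F, (m F).det = F.det := fun F => by rw [hm]; exact LinearMap.det_toMatrix _ _
  have e2 : ∀ F : Op N, LinearMap.trace ℝ (Euc N) (F : Euc N →ₗ[ℝ] Euc N) = (m F).trace :=
    fun F => by rw [hm]; exact LinearMap.trace_eq_matrix_trace _ _ _
  have e3 : m (A ∘L M t + M t ∘L B) = m A * m (M t) + m (M t) * m B := by
    rw [hm]; simp only [← LinearMap.toMatrix_comp, ← map_add]; rfl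
  have e4 : ∀ (F : Op N) i j, m F i j = F (EuclideanSpace.single j 1) i := fun F i j => by
    rw [hm]; simp [LinearMap.toMatrix_apply]
  have hu : IsUnit (m (M t)).det := by rw [e1]; exact hd.isUnit
  have := R208.N.hasDerivAt_det (A := fun s => m (M s)) (A' := m (A ∘L M t + M t ∘L B)) (x := t)
    (fun i j => by
      simp only [e4]
      exact (EuclideanSpace.proj (𝕜 := ℝ) i).hasFDerivAt.comp_hasDerivAt t (h _)) hu
  simp only [e1] at this
  refine this.congr_deriv ?_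
  rw [e3, mul_add, Matrix.trace_add, Matrix.trace_mul_comm, mul_assoc, Matrix.mul_nonsing_inv _ hu,
    mul_one, ← mul_assoc, Matrix.nonsing_inv_mul _ hu, one_mul, e2, e2, mul_comm]


lemma det_ne_zero_of_inj {M : Op N} (h : ∀ x, M x = 0 → x = 0) : M.det ≠ 0 := fun e =>
  (LinearMap.det_eq_zero_iff_ker_ne_bot.1 e) (LinearMap.ker_eq_bot'.2 h)

lemma continuousOn_tau (h : IsU G (U G)) : ContinuousOn (tau G) (US G) :=
  (LinearMap.continuous_of_finiteDimensional ((LinearMap.trace ℝ (Euc N)).comp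
    (ContinuousLinearMap.coeLM ℝ))).comp_continuousOn h.cont

lemma hasDerivAt_St (h : IsU G (U G)) (hq : q ∈ US G) (t : ℝ) :
    HasDerivAt (fun t => St G t q) (tau G (fl G (q, t))) t :=
  (((continuousOn_tau h).comp_continuous (continuous_fl_t hq.1)
    (fl_US hq)).integral_hasStrictDerivAt 0 t).hasDerivAt

lemma St_zero (q : TT N) : St G 0 q = 0 := by simp [St_def]

lemma Ju_apply (q : TT N) (t : ℝ) (w : Euc N) : Ju G q t w = Wj G q (Pv G q w) (U G q w) t := rfl

lemma Js_apply (q : TT N) (t : ℝ) (w : Euc N) :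
    Js G q t w = Wj G q (Pv G q w) (-U G (rev q) w) t := rfl

lemma Ju_zero (q : TT N) : Ju G q 0 = Pv G q := by ext1 w; rw [Ju_apply, Wj_zero]

lemma isJac_Ju (h : IsU G (U G)) (hq : q ∈ US G) (w : Euc N) :
    IsJac (Rh G q) (fun t => Ju G q t w) (Wj' G q (Pv G q w) (U G q w)) :=
  isJac_Wj hq.1 (mem_Vp.1 (Pv_mem hq.1 hq.2 w)).1 (mem_Vp.1 (h.mem hq w)).1

lemma isJac_Js (h : IsU G (U G)) (hq : q ∈ US G) (w : Euc N) :
    IsJac (Rh G q) (fun t => Js G q t w) (Wj' G q (Pv G q w) (-U G (rev q) w)) :=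
  isJac_Wj hq.1 (mem_Vp.1 (Pv_mem hq.1 hq.2 w)).1
    (mem_Vp.1 (Vp_rev (G := G) q ▸ neg_mem (h.mem (rev_US hq) w))).1

lemma Wj'_Ju (hc : IsCompact S) (h : IsU G (U G)) (hq : q ∈ US G) (t : ℝ) (w : Euc N) :
    Wj' G q (Pv G q w) (U G q w) t = hat G (U G) q t (Ju G q t w) := by
  obtain ⟨b, -, hb⟩ := h.exists_bound hc
  have hj := isJac_Ju h hq w
  refine sub_eq_zero.1 (lin_unique (fun t => -hat G (U G) q t) (b := b)
    (x := fun t => Wj' G q (Pv G q w) (U G q w) t - hat G (U G) q t (Ju G q t w))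
    (fun t => by rw [norm_neg]; exact (norm_hat _ hq.1 t).trans (hb _ (fl_US hq t)))
    (fun t => ((hj.snd t).sub ((h.ric q hq t).clm_apply (hj.fst t))).congr_deriv ?_) ?_ t)
  · simp only [sub_apply, neg_apply, ContinuousLinearMap.comp_apply, map_sub]
    abel
  · simp only [hat_zero, Ju_zero, h.comp_Pv q hq]
    rw [Wj'_zero hq.1 (mem_Vp.1 (Pv_mem hq.1 hq.2 w)).1 (mem_Vp.1 (h.mem hq w)).1, sub_self]

lemma hasDerivAt_Ju (hc : IsCompact S) (h : IsU G (U G)) (hq : q ∈ US G) (t : ℝ) (w : Euc N) :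
    HasDerivAt (fun t => Ju G q t w) (hat G (U G) q t (Ju G q t w)) t :=
  Wj'_Ju hc h hq t w ▸ (isJac_Ju h hq w).fst t

lemma Js_rev (h : IsU G (U G)) (hq : q ∈ US G) (t : ℝ) (w : Euc N) :
    Js G q t w = Ju G (rev q) (-t) w ∧ Wj' G q (Pv G q w) (-U G (rev q) w) t =
      -Wj' G (rev q) (Pv G (rev q) w) (U G (rev q) w) (-t) := by
  have hr := rev_US hq
  have hj := isJac_Ju h hr w
  refine (isJac_Js h hq w).unique (contDiff_Rh hq.1).continuous
    (k := fun t => Ju G (rev q) (-t) w)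
    (k' := fun t => -Wj' G (rev q) (Pv G (rev q) w) (U G (rev q) w) (-t))
    ⟨fun t => ?_, fun t => ?_⟩ (t₀ := 0) ?_ ?_ t
  · simpa [Function.comp_def] using (hj.fst (-t)).scomp t (hasDerivAt_neg t)
  · simpa [Function.comp_def, Rh_rev hq.1] using
      ((hj.snd (-t)).scomp t (hasDerivAt_neg t)).fun_neg
  · simp only [neg_zero, Ju_zero, Js_apply, Wj_zero, Pv_rev]
  · rw [neg_zero, Wj'_zero hr.1 (mem_Vp.1 (Pv_mem hr.1 hr.2 w)).1 (mem_Vp.1 (h.mem hr w)).1,
      Wj'_zero hq.1 (mem_Vp.1 (Pv_mem hq.1 hq.2 w)).1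
        (mem_Vp.1 (Vp_rev (G := G) q ▸ neg_mem (h.mem hr w))).1]

lemma Ju_mem (hc : IsCompact S) (h : IsU G (U G)) (hq : q ∈ US G) (t : ℝ) (w : Euc N) :
    Ju G q t w ∈ Vp G q := by
  have := lin_unique (fun _ => (0 : Op N)) (b := 0) (fun _ => norm_zero.le)
    (x := fun t => Ju G q t w - Pv G q (Ju G q t w))
    (fun t => ((hasDerivAt_Ju hc h hq t w).sub ((Pv G q).hasFDerivAt.comp_hasDerivAt t
      (hasDerivAt_Ju hc h hq t w))).congr_deriv (by
        rw [Pv_of_mem hq.1 (h.hat_mem hq t _), sub_self]; rfl))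
    (by simp only [Ju_zero, Pv_Pv hq, sub_self]) t
  rw [sub_eq_zero.1 this]
  exact Pv_mem hq.1 hq.2 _

lemma Ju_lower (hc : IsCompact S) (h : IsU G (U G)) (hq : q ∈ US G) (w : Euc N) {s t : ℝ}
    (hst : s ≤ t) : Real.exp (a * (t - s)) * ‖Ju G q s w‖ ≤ ‖Ju G q t w‖ :=
  grow_lower (fun t => hasDerivAt_Ju hc h hq t w) (fun t => h.hat_lower hq t (Ju_mem hc h hq t w)) hst

lemma Ju_upper (hc : IsCompact S) (h : IsU G (U G)) {b : ℝ} (hb : ∀ q ∈ US G, ‖U G q‖ ≤ b)
    (hq : q ∈ US G) (w : Euc N) {s t : ℝ} (hst : s ≤ t) :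
    ‖Ju G q t w‖ ≤ Real.exp (b * (t - s)) * ‖Ju G q s w‖ :=
  grow_upper (fun t => hasDerivAt_Ju hc h hq t w) (fun t => (real_inner_le_norm _ _).trans <| by
    rw [sq ‖_‖, ← mul_assoc]
    exact mul_le_mul_of_nonneg_right (ContinuousLinearMap.le_of_opNorm_le _
      ((norm_hat _ hq.1 t).trans (hb _ (fl_US hq t))) _) (norm_nonneg _)) hst

lemma det_Ju (hc : IsCompact S) (h : IsU G (U G)) (hq : q ∈ US G) (t : ℝ) :
    (Ju G q t + (ContinuousLinearMap.id ℝ (Euc N) - Pv G q)).det = Real.exp (St G t q) := by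
  obtain ⟨b, -, hb⟩ := h.exists_bound hc
  have hne : ∀ t, (Ju G q t + (ContinuousLinearMap.id ℝ (Euc N) - Pv G q)).det ≠ 0 := fun t =>
    det_ne_zero_of_inj fun x hx => by
      have h1 : Ju G q t x + (x - Pv G q x) = 0 := hx
      have h2 := congrArg (Pv G q) h1
      rw [map_add, map_sub, Pv_Pv hq, sub_self, add_zero, Pv_of_mem hq.1 (Ju_mem hc h hq t x),
        map_zero] at h2
      have h3 : Pv G q x = 0 := by
        rcases le_total 0 t with ht | ht
        · have := Ju_lower hc h hq x ht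
          rw [h2, norm_zero, Ju_zero] at this
          exact norm_le_zero_iff.1 (nonpos_of_mul_nonpos_right this (Real.exp_pos _))
        · have := Ju_upper hc h hb hq x ht
          rw [h2, norm_zero, Ju_zero, mul_zero] at this
          exact norm_le_zero_iff.1 this
      simpa [h2, h3] using h1
  have hd : ∀ t, HasDerivAt (fun t => (Ju G q t +
      (ContinuousLinearMap.id ℝ (Euc N) - Pv G q)).det * Real.exp (-St G t q)) 0 t := fun t => by
    refine ((hasDerivAt_det_pt (A := hat G (U G) q t) (B := 0) (fun w => ?_) (hne t)).mul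
      (hasDerivAt_St h hq t).neg.exp).congr_deriv ?_
    · simpa [h.hat_Pv hq] using (hasDerivAt_Ju hc h hq t w).add_const (w - Pv G q w)
    · simp only [trace_hat _ hq.1, tau, ContinuousLinearMap.toLinearMap_zero, map_zero, Pi.neg_apply]
      ring
  have := eq_of_hasDerivAt_zero hd t
  simp only [Ju_zero, St_zero, add_sub_cancel, neg_zero, Real.exp_zero, mul_one] at this
  rw [show (ContinuousLinearMap.id ℝ (Euc N)).det = 1 from LinearMap.det_id, Real.exp_neg] at this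
  exact (mul_inv_eq_one₀ (Real.exp_ne_zero _)).1 this

theorem juS (hU : UExS) : JuS := by
  intro n N a S G hH
  have h := hU n N a S G hH
  obtain ⟨b, -, hb⟩ := h.exists_bound hH.cpt
  have hb' : ∀ q ∈ US G, ‖U G q‖ ≤ max a b := fun q hq => (hb q hq).trans (le_max_right _ _)
  refine ⟨max a b, le_max_left _ _, fun q hq => ⟨hb' q hq, Wj'_Ju hH.cpt h hq, fun t w => ?_,
    fun t => ContinuousLinearMap.ext fun w => (Js_rev h hq t w).1, Ju_mem hH.cpt h hq,
    fun s t w hst => ⟨Ju_lower hH.cpt h hq w hst, Ju_upper hH.cpt h hb' hq w hst⟩,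
    det_Ju hH.cpt h hq⟩⟩
  refine (Js_rev h hq t w).2.trans ?_
  rw [Wj'_Ju hH.cpt h (rev_US hq), hat_rev _ hq.1, neg_neg, (Js_rev h hq t w).1]

end Crest.Agent.N221
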